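import Vale.Agent.P110.Final

/-- Ultraflat real Littlewood polynomials exist: alternative (i) holds, at every large length. -/
theorem Vale.Agent.Results.P110.Ultraflat.result :
    ∀ c : ℝ, 0 < c → ∃ N₀ : ℕ, ∀ N : ℕ, N₀ ≤ N → ∃ ε : Fin N → ℤ,
      (∀ k, ε k = 1 ∨ ε k = -1) ∧ ∀ z : ℂ, ‖z‖ = 1 →
        (1 - c) * Real.sqrt N ≤ ‖∑ k : Fin N, (ε k : ℂ) * z ^ (k : ℕ)‖ ∧
        ‖∑ k : Fin N, (ε k : ℂ) * z ^ (k : ℕ)‖ ≤ (1 + c) * Real.sqrt N := by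
  intro c hc
  obtain ⟨N₀, h⟩ := Vale.Agent.P110.ultraflat c hc
  refine ⟨N₀, fun N hN => ?_⟩
  obtain ⟨ε, h1, h2⟩ := h N hN
  refine ⟨fun k => if ε k = 1 then 1 else -1, fun k => by dsimp only; split_ifs <;> simp, fun z hz => ?_⟩
  have key : ∀ k, (((if ε k = 1 then 1 else -1 : ℤ)) : ℂ) = (ε k : ℂ) := by
    intro k
    rcases h1 k with h3 | h3
    · simp [h3]
    · rw [h3, if_neg (by norm_num)]; simp
  simp only [key]
  exact h2 z hz
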