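import Vale.Agent.Results.P110.Ultraflat

/-- There is an ultraflat sequence of real Littlewood polynomials, one of each length `N`. -/
theorem Vale.Agent.Results.P110.UltraflatSeq.result :
    ∃ ε : (N : ℕ) → Fin N → ℤ, (∀ N k, ε N k = 1 ∨ ε N k = -1) ∧
      TendstoUniformlyOn
        (fun (N : ℕ) (z : ℂ) => ‖∑ k : Fin N, (ε N k : ℂ) * z ^ (k : ℕ)‖ / Real.sqrt N)
        (fun _ => 1) Filter.atTop {z : ℂ | ‖z‖ = 1} := by
  classical
  have h := fun m : ℕ => Vale.Agent.Results.P110.Ultraflat.result (1 / ((m : ℝ) + 1))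
    (by positivity)
  choose N₀ hN₀ using h
  choose f hf1 hf2 using hN₀
  let m : ℕ → ℕ := fun N => Nat.findGreatest (fun m => N₀ m ≤ N) N
  refine ⟨fun N => if h : N₀ (m N) ≤ N then f (m N) N h else fun _ => 1, ?_, ?_⟩
  · intro N k
    by_cases h : N₀ (m N) ≤ N
    · simp only [dif_pos h]; exact hf1 _ _ _ k
    · simp only [dif_neg h]; simp
  · rw [Metric.tendstoUniformlyOn_iff]
    intro η hη
    obtain ⟨a, ha⟩ := exists_nat_one_div_lt hη
    filter_upwards [Filter.eventually_ge_atTop (max (max a (N₀ a)) 1)] with N hN z hz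
    have h1 : a ≤ N := ((le_max_left _ _).trans (le_max_left _ _)).trans hN
    have h2 : N₀ a ≤ N := ((le_max_right _ _).trans (le_max_left _ _)).trans hN
    have h3 : 1 ≤ N := (le_max_right _ _).trans hN
    have h4 : a ≤ m N := Nat.le_findGreatest h1 h2
    have h5 : N₀ (m N) ≤ N := Nat.findGreatest_spec (P := fun m => N₀ m ≤ N) h1 h2
    simp only [dif_pos h5]
    obtain ⟨b1, b2⟩ := hf2 (m N) N h5 z hz
    have hs : 0 < Real.sqrt N := Real.sqrt_pos.mpr (by exact_mod_cast h3)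
    have h6 : 1 / ((m N : ℝ) + 1) ≤ 1 / ((a : ℝ) + 1) := by
      have : (a : ℝ) ≤ m N := by exact_mod_cast h4
      gcongr
    rw [← le_div_iff₀ hs] at b1
    rw [← div_le_iff₀ hs] at b2
    rw [Real.dist_eq, abs_lt]
    constructor <;> linarith
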